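import Vale.Agent.P257CY.St
import Vale.Agent.P251CY.Br

/-!
# The compact form of `HasV` is equivalent to the old one
-/

open CategoryTheory MonoidalCategory

noncomputable section

namespace Vale.Agent.P251CY.V

open Vale.Agent.P251.St Vale.Agent.P251.St.SHCat

variable {T : SHCat} {S : Susp T} {R R' : RingSp T}

theorem finSp_iff (X : T.C) : FinSp X ↔ P257.St.FinSp X := by
  constructor
  · intro h
    induction h with
    | zero h => exact .zero h
    | cell d _ ih => exact .cell d ih
  · intro h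
    induction h with
    | zero h => exact .zero h
    | cell d _ ih => exact .cell d ih

theorem finPLocal_iff (p : ℕ) (X : T.C) : FinPLocal p X ↔ P257.St.FinPLocal p X :=
  exists_congr fun _ => exists_congr fun _ => exists_congr fun _ => exists_congr fun _ =>
    exists_congr fun _ => and_congr (finSp_iff _) Iff.rfl

theorem isRingMap_iff (f : Hom R.obj R'.obj) :
    IsRingMap f ↔ P257.St.IsRingMap (R := R.toOld) (R' := R'.toOld) f := Iff.rfl

theorem carries_iff (f : Hom R.obj R'.obj) (o : Oriented S R) (o' : Oriented S R') :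
    Carries f o o' ↔ P257.St.Carries (R := R.toOld) (R' := R'.toOld) f o.toOld o'.toOld := by
  refine forall_congr' fun n => forall_congr' fun A => forall_congr' fun _ => ?_
  simp only [tensorHom_id]
  exact Iff.rfl

theorem isBrownPeterson_iff (p : ℕ) (o : Oriented S R) (φ : GHom S p R) :
    IsBrownPeterson p o φ ↔ P257.St.IsBrownPeterson p o.toOld φ.toOld := by
  constructor
  · intro h
    refine ⟨(isPTyp_iff _ _).1 h.typ, fun B o' φ' h' => ?_⟩
    exact (existsUnique_congr fun f => and_congr (isRingMap_iff f) (carries_iff f _ _)).1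
      (h.univ (RingSp.ofOld B) (Oriented.ofOld o') (GHom.ofOld φ') ((isPTyp_iff _ _).2 h'))
  · intro h
    refine ⟨(isPTyp_iff _ _).2 h.typ, fun B o' φ' h' => ?_⟩
    exact (existsUnique_congr fun f => and_congr (isRingMap_iff f) (carries_iff f _ _)).2
      (h.univ B.toOld o'.toOld φ'.toOld ((isPTyp_iff _ _).1 h'))

theorem hazV_eq {p : ℕ} (φ : GHom S p R) : hazV φ = P257.St.hazV φ.toOld :=
  funext fun i => congrArg φ.val (Subtype.ext (vEl_eq p i))

theorem inIdeal_iff (p n : ℕ) (v : ∀ i, PiR S R (p ^ i - 1)) {k : ℤ}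
    (a : Hom (sphere T k) R.obj) :
    InIdeal n v a ↔ P257.St.InIdeal (S := S) (R := R.toOld) p n v a := by
  refine exists_congr fun b => ?_
  simp only [id_tensorHom]

theorem isSmithToda_iff (p n : ℕ) (v : ∀ i, PiR S R (p ^ i - 1)) (X : T.C) :
    IsSmithToda n v X ↔ P257.St.IsSmithToda (S := S) (R := R.toOld) p n v X := by
  refine exists_congr fun g => and_congr ?_ (and_congr Iff.rfl (forall_congr' fun k =>
    forall_congr' fun a => iff_congr Iff.rfl (inIdeal_iff p n v a)))
  simp only [id_tensorHom, tensorHom_id]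

theorem hasV_iff (S : Susp T) (p n : ℕ) : HasV S p n ↔ P257.St.HasV S p n := by
  constructor
  · rintro ⟨⟨B, o, φ, h⟩, X, hX, hV⟩
    refine ⟨⟨B.toOld, o.toOld, φ.toOld, (isBrownPeterson_iff _ _ _).1 h⟩, X,
      (finPLocal_iff _ _).1 hX, fun B o φ h => ?_⟩
    have := (isSmithToda_iff p n _ X).1 (hV (RingSp.ofOld B) (Oriented.ofOld o) (GHom.ofOld φ)
      ((isBrownPeterson_iff _ _ _).2 h))
    rwa [hazV_eq] at this
  · rintro ⟨⟨B, o, φ, h⟩, X, hX, hV⟩
    refine ⟨⟨RingSp.ofOld B, Oriented.ofOld o, GHom.ofOld φ, (isBrownPeterson_iff _ _ _).2 h⟩, X,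
      (finPLocal_iff _ _).2 hX, fun B o φ h => (isSmithToda_iff p n _ X).2 ?_⟩
    rw [hazV_eq]
    exact hV B.toOld o.toOld φ.toOld ((isBrownPeterson_iff _ _ _).1 h)

end Vale.Agent.P251CY.V
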