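import Vale.Agent.P251CY.Lay

/-!
# P257, statement layer (compact form): `BP` and Smith-Toda complexes

The same definitions as in `P257/H702/Statement.lean` and `P257/H80/StBP.lean`, written with the
short auxiliary names of `P251CY/Lay.lean`.
-/

open CategoryTheory MonoidalCategory

noncomputable section

namespace Vale.Agent.P251CY.V

open Vale.Agent.P251.St Vale.Agent.P251.St.SHCat

variable {T : SHCat} {S : Susp T} {R R' : RingSp T}

/-! ### Finite `p`-local spectra -/

/-- Finite CW spectra: the objects which are obtained from `0` by attaching finitely many cells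
(of arbitrary integer dimensions), `S^k ⟶ X ⟶ Y ⟶ S^{k+1}`. -/
inductive FinSp : T.C → Prop
  | zero {X} : ident X = nul X X → FinSp X
  | cell {X Y k} {f : Hom (sphere T k) X} {g : Hom X Y} {h} : Dist f g h → FinSp X → FinSp Y

/-- `l : X ⟶ Y` is the `p`-localization of `X`. -/
def IsPLocalization (p : ℕ) {X Y : T.C} (l : Hom X Y) : Prop :=
  PLocal p Y ∧ ∀ Z, PLocal p Z → ∀ f : Hom X Z, ∃! g : Hom Y Z, comp l g = f

/-- A finite `p`-local spectrum: a retract of the `p`-localization of a finite CW spectrum. -/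
def FinPLocal (p : ℕ) (X : T.C) : Prop :=
  ∃ (F Y : T.C) (l : Hom F Y) (i : Hom X Y) (r : Hom Y X),
    FinSp F ∧ IsPLocalization p l ∧ comp i r = ident X

/-! ### The Brown-Peterson spectrum -/

/-- `f` is a homomorphism of ring spectra. -/
def IsRingMap (f : Hom R.obj R'.obj) : Prop :=
  comp R.unit f = R'.unit ∧ comp R.mul f = comp (tenHom f f) R'.mul

/-- `f` carries the complex orientation `o` of `R` to the complex orientation `o'` of `R'`. -/
def Carries (f : Hom R.obj R'.obj) (o : Oriented S R) (o' : Oriented S R') : Prop :=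
  ∀ (n : ℕ) (A : Type) [Fintype A], comp (o.θ n A) (tenR f (Sn S n)) = o'.θ n A

/-- `R`, with the complex orientation `o` and the homomorphism `φ : ℤ[v_1, v_2, …] → π_* R`, is the
Brown-Peterson spectrum at `p`: it is the initial `p`-local commutative ring spectrum with a
`p`-typical complex orientation. The elements `φ v_i` of `π_{2(p^i-1)} R` are the Hazewinkel
generators. -/
structure IsBrownPeterson (p : ℕ) (o : Oriented S R) (φ : GHom S p R) : Prop where
  typ : IsPTyp p o φ
  univ : ∀ (R' : RingSp T) (o' : Oriented S R') (φ' : GHom S p R'),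
    IsPTyp p o' φ' → ∃! f, IsRingMap f ∧ Carries f o o'

theorem vEl_mem (p i : ℕ) : vEl p i ∈
    MvPolynomial.weightedHomogeneousSubmodule ℤ (fun i : ℕ => p ^ (i + 1) - 1) (p ^ i - 1) := by
  cases i <;> exact P257.St.vEl_mem p _

/-- the elements `v_0 = p, v_1, v_2, …` of the homotopy of `R` -/
def hazV {p : ℕ} (φ : GHom S p R) (i : ℕ) : PiR S R (p ^ i - 1) := φ.val ⟨vEl p i, vEl_mem p i⟩

/-! ### Smith-Toda complexes -/

/-- the left unit `A ⟶ 𝟙 ⊗ A` -/
abbrev leftInv (A : T.C) : Hom A (ten T.one A) := Iso.inv (X := ten T.one A) (λ_ A)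

/-- the right unit `A ⟶ A ⊗ 𝟙` -/
abbrev rightInv (A : T.C) : Hom A (ten A T.one) := Iso.inv (X := ten A T.one) (ρ_ A)

/-- the map `A = 𝟙 ⊗ A ⟶ R ⊗ A` induced by the unit -/
abbrev hur (R : RingSp T) (A : T.C) : Hom A (ten R.obj A) := comp (leftInv A) (tenR R.unit A)

/-- The `R`-linear extension `R ⟶ R ⊗ X` of `g : 𝟙 ⟶ R ⊗ X`; the product of `a ∈ π_k R` with
`g ∈ R_0 X` is `comp a (lin g)`. -/
def lin {X : T.C} (g : Hom T.one (ten R.obj X)) : Hom R.obj (ten R.obj X) :=
  comp (rightInv R.obj) (comp (tenL R.obj g) (lact R X))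

/-- `a ∈ π_k R` belongs to the ideal generated by `v_0, …, v_n`, where `v_i ∈ π_{2 d_i} R`: it is a
sum of products `b_i v_i`. -/
def InIdeal (n : ℕ) {d : ℕ → ℕ} (v : ∀ i, PiR S R (d i)) {k : ℤ} (a : Hom (sphere T k) R.obj) :
    Prop :=
  ∃ b : ∀ i, Hom (sphere T k) (ten R.obj (Sn S (d i))),
    a = hsum (n + 1) fun i => comp (b i) (comp (tenL R.obj (v i)) R.mul)

/-- `R_* X ≅ R_* / (v_0, v_1, …, v_n)` as an `R_* R`-comodule, with generator in degree `0`, where
`v_i ∈ π_{2 d_i} R`: there is a class `g ∈ R_0 X` which is primitive, that is, the maps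
`R ⊗ X = 𝟙 ⊗ R ⊗ X ⟶ R ⊗ R ⊗ X` and `R ⊗ X = R ⊗ 𝟙 ⊗ X ⟶ R ⊗ R ⊗ X` have the same value on `g`,
which generates `R_* X` over `R_*`, and whose annihilator is `(v_0, v_1, …, v_n)`. -/
def IsSmithToda (n : ℕ) {d : ℕ → ℕ} (v : ∀ i, PiR S R (d i)) (X : T.C) : Prop :=
  ∃ g : Hom T.one (ten R.obj X),
    comp g (hur R _) = comp g (tenL R.obj (hur R X)) ∧
    (∀ k (y : Hom (sphere T k) _), ∃ a, y = comp a (lin g)) ∧
    ∀ k (a : Hom (sphere T k) R.obj), comp a (lin g) = nul _ _ ↔ InIdeal n v a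

/-- `V(n)` exists at the prime `p`: the Brown-Peterson spectrum exists, and there is a finite
`p`-local spectrum `X` with `BP_* X ≅ BP_* / (p, v_1, …, v_n)` as comodules. -/
def HasV (S : Susp T) (p n : ℕ) : Prop :=
  (∃ (B : RingSp T) (o : Oriented S B) (φ : GHom S p B), IsBrownPeterson p o φ) ∧
  ∃ X : T.C, FinPLocal p X ∧ ∀ (B : RingSp T) (o : Oriented S B) (φ : GHom S p B),
    IsBrownPeterson p o φ → IsSmithToda n (hazV φ) X

end Vale.Agent.P251CY.V
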